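import Vale.Agent.P095G.Defs

/-! Amenability and the trace of the Jiang-Su algebra. -/

namespace Vale.Agent.P095A

open Vale.Agent.P095G

/-- Amenability in the form of the Følner condition. -/
def Folner (G : Type) [Group G] : Prop :=
  ∀ (K : Finset G) (ε : ℝ), 0 < ε → ∃ Φ : Finset G, Φ.Nonempty ∧
    ∀ g ∈ K, (Set.ncard {x | x ∈ Φ ∧ g * x ∉ Φ} : ℝ) ≤ ε * Φ.card

/-- There is exactly one tracial state and it is faithful. -/
def UniqueTrace (Z : Type) [CStarAlgebra Z] : Prop :=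
  ∃ τ : Z →ₗ[ℂ] ℂ, Tr τ ∧ (∀ ρ : Z →ₗ[ℂ] ℂ, Tr ρ → ρ = τ) ∧ ∀ x, τ (star x * x) = 0 → x = 0

end Vale.Agent.P095A
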