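import Vale.Agent.P095A.Work
import Vale.Agent.P095G.PartSTEP
import Vale.Agent.P095G.PartEX0
import Vale.Agent.P095G.PartL2
import Vale.Agent.P095G.PartPS

/-! From centred almost invariant elements to tracial divisions of the unit. -/

namespace Vale.Agent.P095A

open Filter Topology Finset Vale.Agent.P101 Vale.Agent.P095 Vale.Agent.P095G TopologicalSpace

variable {D E F : Type} [CStarAlgebra D] [CStarAlgebra E] [CStarAlgebra F] {G : Type} [Group G]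

lemma haar7 {m : ℕ} {θ : Fin m → D →⋆ₐ[ℂ] E} (hθ : Cm θ) {w : D} (hw : IsSelfAdjoint w)
    (hw1 : ‖w‖ ≤ 1) {b x η : ℝ} {k : ℕ} (hb : 0 ≤ b) (hk : 0 < k) (hkb : k * b ≤ 1) (hx : 0 < x)
    (hη : 0 < η) (h1 : ∀ ρ : D →ₗ[ℂ] ℂ, Tr ρ → ρ w = 0 ∧ x ≤ (ρ (w ^ 2)).re)
    (h3 : 1 ≤ η * (m * (b ^ 2 * x / 8))) {τ : E →ₗ[ℂ] ℂ} (hτ : Tr τ) :
    ‖τ (ex k (∑ j, θ j ((b : ℂ) • w)))‖ ≤ η := by
  have e : ex k ((b : ℂ) • w) = ex (k * b : ℝ) w := by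
    rw [ex, ex, smul_smul]
    congr 2
    push_cast
    ring
  have hk1 : (1 : ℝ) ≤ k := by exact_mod_cast hk
  have h4 : b ^ 2 * x ≤ (k * b) ^ 2 * x :=
    mul_le_mul_of_nonneg_right (pow_le_pow_left₀ hb (le_mul_of_one_le_left hb hk1) 2) hx.le
  rw [ex_sum hθ, e]
  refine (ext_bound hθ _ (r := Real.exp (-(b ^ 2 * x / 8))) (fun ρ hρ => ?_) hτ).trans ?_
  · refine (ex_zero hρ hw (h1 ρ hρ).1 ?_ (h1 ρ hρ).2).trans ?_
    · rw [abs_of_nonneg (by positivity)]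
      exact mul_le_one₀ hkb (norm_nonneg _) hw1
    · linarith [Real.add_one_le_exp (-(b ^ 2 * x / 8))]
  · rw [Fintype.card_fin, ← Real.exp_nat_mul, mul_neg, Real.exp_neg,
      inv_le_comm₀ (Real.exp_pos _) hη, inv_le_iff_one_le_mul₀' hη]
    have := Real.add_one_le_exp (m * (b ^ 2 * x / 8))
    nlinarith

theorem gam7 {σ : G →* (F ≃⋆ₐ[ℂ] F)} (hσ : CpG σ) (h : Cnt σ) : Gam σ ⊤ := by
  intro n hn K _ ε hε
  obtain ⟨k₀, η, f, hk₀, hη, f1, f2, f3, f4⟩ := circ n hn ε hε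
  have hk : (1 : ℝ) ≤ k₀ := by exact_mod_cast hk₀
  set b : ℝ := (k₀ : ℝ)⁻¹ with hbd
  have hb : 0 < b := by positivity
  have hb1 : b ≤ 1 := inv_le_one_of_one_le₀ hk
  obtain ⟨c, hc⟩ : ∃ c : ℝ, c = 32 / (η * b ^ 2) := ⟨_, rfl⟩
  have hc0 : 0 < c := by rw [hc]; positivity
  obtain ⟨δ, D, _, _, β, ι, w, d0, d1, hι, hw, hw1, hρ⟩ :=
    h K ((η / 2) ^ 2 / (c + 1)) (by positivity)
  obtain ⟨E, _, _, γ, κ, θ, hκ, hθ, hcm⟩ := hσ D β ι hι ⌈c / δ⌉₊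
  have m1 : c ≤ (⌈c / δ⌉₊ : ℝ) * δ := (div_le_iff₀ d0).1 (Nat.le_ceil _)
  have m2 : (⌈c / δ⌉₊ : ℝ) * δ ≤ c + 1 := by
    have := mul_le_mul_of_nonneg_right (Nat.ceil_lt_add_one (a := c / δ) (by positivity)).le d0.le
    rw [add_mul, div_mul_cancel₀ _ d0.ne'] at this
    linarith
  have sa : ∀ z : D, IsSelfAdjoint z → IsSelfAdjoint (∑ j, θ j ((b : ℂ) • z)) := fun z hz =>
    isSelfAdjoint_sum _ fun j _ => (ST.smul_sa b hz).map _
  refine ⟨E, inferInstance, inferInstance, γ, κ, fun i => cfc (f i) (∑ j, θ j ((b : ℂ) • w)),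
    hκ, fun i => Ctr.cfc (f2 i), fun i j hij => ?_, fun τ hτ i => ⟨?_, fun g hg => ?_⟩⟩
  · rw [← cfc_mul _ _ _ (f1 i).continuousOn (f1 j).continuousOn]
    simp only [f3 i j _ hij, cfc_const_zero]
  · refine (f4 E τ hτ _ (sa w hw)).1 (fun k h1 h2 => haar7 hcm hw hw1 (x := δ / 4) hb.le h1
      ?_ (by positivity) hη (fun ρ h => ⟨(hρ ρ h).1, by rw [sq]; exact (hρ ρ h).2.1⟩) ?_ hτ) i
    · rw [hbd, ← div_eq_mul_inv, div_le_one (by positivity)]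
      exact_mod_cast h2
    · rw [hc, div_le_iff₀ (by positivity)] at m1
      rw [hc]
      linarith
  · have e1 : γ g (∑ j, θ j ((b : ℂ) • w)) = ∑ j, θ j ((b : ℂ) • β g w) := by
      rw [map_sum]
      refine sum_congr rfl fun j _ => ?_
      rw [← hθ j g, map_smul (β g)]
    have e2 : γ g (cfc (f i) (∑ j, θ j ((b : ℂ) • w))) =
        cfc (f i) (∑ j, θ j ((b : ℂ) • β g w)) := by
      rw [← e1]
      exact S2.map_cfc (γ g : E →⋆ₐ[ℂ] E) (f1 i) (sa w hw)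
    rw [e2]
    refine (f4 E τ hτ _ (sa w hw)).2 _ (sa _ (hw.map _)) ((ex_diff2 hτ (sa _ (hw.map _)) (sa w hw)
      (c := η / 2) (by positivity) ?_).trans_eq (by ring)) i
    rw [← sum_sub_distrib]
    simp only [← map_sub, ← smul_sub]
    refine (var hcm (v := (η / 2) ^ 2 / (c + 1) * δ) (fun ρ h => ?_) (fun ρ h => ?_) hτ).trans ?_
    · obtain ⟨ρ', a1, a2, -⟩ := AVG.tr_eqv h (β g)
      rw [map_smul, map_sub, ← a2, (hρ ρ h).1, (hρ ρ' a1).1, sub_zero, smul_zero]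
    · rw [smul_pow, map_smul, smul_eq_mul, ← Complex.ofReal_pow, Complex.re_ofReal_mul]
      exact (mul_le_of_le_one_left (h.sq_nonneg' ((hw.map _).sub hw))
        (pow_le_one₀ hb.le hb1)).trans ((hρ ρ h).2.2 g hg)
    · rw [Fintype.card_fin, mul_left_comm, div_mul_eq_mul_div, div_le_iff₀ (by positivity)]
      exact mul_le_mul_of_nonneg_left m2 (sq_nonneg _)

end Vale.Agent.P095A
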