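import Vale.Agent.P095A.PartCNT
import Vale.Agent.P095A.PartGAM7
import Vale.Agent.P095G.PartFOL
import Vale.Agent.P095G.PartBASE
import Vale.Agent.P095G.PartCPG
import Vale.Agent.P095G.PartFIN
import Vale.Agent.P095.PartCN
import Vale.Agent.P101.Glue

/-! Equivariant uniform property Gamma for amenable groups. -/

namespace Vale.Agent.P095A

open Filter Topology Finset Vale.Agent.P101 Vale.Agent.P095 Vale.Agent.P095G TopologicalSpace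

variable {A E F T Z : Type} [CStarAlgebra A] [CStarAlgebra E] [CStarAlgebra F] [CStarAlgebra T]
  [CStarAlgebra Z] {G : Type} [Group G]

theorem gam_all [Countable G] (hG : P184.IsAmenable G) {σ : G →* (F ≃⋆ₐ[ℂ] F)} (h1 : CpG σ)
    (hF : Cp F) (h : IsEmpty (F →⋆ₐ[ℂ] ℂ)) : Gam σ ⊤ :=
  gam7 h1 (cnt (folner hG) (base σ hF h))

theorem main [Nontrivial A] [SeparableSpace A] [SeparableSpace Z] (hs : SelfCentral Z)
    (hz : IsEmpty (Z →⋆ₐ[ℂ] ℂ)) (ι : A →⋆ₐ[ℂ] T) (j : Z →⋆ₐ[ℂ] T)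
    (hc : ∀ a d, Commute (ι a) (j d))
    (hd : Dense (StarAlgebra.adjoin ℂ (Set.range ι ∪ Set.range j) : Set T)) (φ : A ≃⋆ₐ[ℂ] T)
    [Countable G] (hG : P184.IsAmenable G) (α : G →* (A ≃⋆ₐ[ℂ] A))
    (n : ℕ) (hn : 0 < n) (X : Finset A) (K : Finset G) (ε : ℝ) (hε : 0 < ε) :
    ∃ e : Fin n → A, (∀ i, IsSelfAdjoint (e i) ∧ spectrum ℝ (e i) ⊆ Set.Icc 0 1) ∧
      (∀ i j, i ≠ j → ‖e i * e j‖ < ε) ∧ (∀ i, ∀ a ∈ X, ‖e i * a - a * e i‖ < ε) ∧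
      ∀ τ : A →ₗ[ℂ] ℂ, Tr τ → ∀ i, (∀ g ∈ K, ‖τ ((α g (e i) - e i) ^ 2)‖ < ε) ∧
        ∀ a ∈ X, ‖τ (a * e i) - τ a / n‖ < ε := by
  have hω : ((hyperfilter ℕ : Ultrafilter ℕ) : Filter ℕ) ≤ cofinite := hyperfilter_le_cofinite
  obtain ⟨E, _, _, q, hq⟩ := exists_ult (A := A) (hyperfilter ℕ)
  obtain ⟨σ, h1, h2⟩ := cpg hω hq α
  exact fin hω hq α h2 (gam_all hG h1 (cp_of_ult hω hq) (cen_nochar hω hq hs hz ι j hc hd φ))
    n hn X K ε hε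

end Vale.Agent.P095A
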