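import Vale.Agent.P095A.Main
import Vale.Agent.P095G.PartNORM4
import Vale.Agent.P095G.PartFINN

/-! Equivariant property Gamma for amenable groups, with invariance in norm. -/

namespace Vale.Agent.P095A

open Filter Topology Finset Vale.Agent.P101 Vale.Agent.P095 Vale.Agent.P095G TopologicalSpace

variable {A T Z : Type} [CStarAlgebra A] [CStarAlgebra T] [CStarAlgebra Z] {G : Type} [Group G]

theorem mainN [Nontrivial A] [SeparableSpace A] [SeparableSpace Z] (hs : SelfCentral Z)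
    (hz : IsEmpty (Z →⋆ₐ[ℂ] ℂ)) (ι : A →⋆ₐ[ℂ] T) (j : Z →⋆ₐ[ℂ] T)
    (hc : ∀ a d, Commute (ι a) (j d))
    (hd : Dense (StarAlgebra.adjoin ℂ (Set.range ι ∪ Set.range j) : Set T)) (φ : A ≃⋆ₐ[ℂ] T)
    [Countable G] (hG : P184.IsAmenable G) (α : G →* (A ≃⋆ₐ[ℂ] A))
    (n : ℕ) (hn : 0 < n) (X : Finset A) (K : Finset G) (ε : ℝ) (hε : 0 < ε) :
    ∃ e : Fin n → A, (∀ i, IsSelfAdjoint (e i) ∧ spectrum ℝ (e i) ⊆ Set.Icc 0 1) ∧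
      (∀ i j, i ≠ j → ‖e i * e j‖ < ε) ∧ (∀ i, ∀ a ∈ X, ‖e i * a - a * e i‖ < ε) ∧
      (∀ i, ∀ g ∈ K, ‖α g (e i) - e i‖ < ε) ∧
      ∀ τ : A →ₗ[ℂ] ℂ, Tr τ → ∀ i, ∀ a ∈ X, ‖τ (a * e i) - τ a / n‖ < ε := by
  have hω : ((hyperfilter ℕ : Ultrafilter ℕ) : Filter ℕ) ≤ cofinite := hyperfilter_le_cofinite
  obtain ⟨E, _, _, q, hq⟩ := exists_ult (A := A) (hyperfilter ℕ)
  obtain ⟨σ, h1, h2⟩ := cpg hω hq α
  exact finN hω hq α h2 (gamN4 hG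
    (gam_all hG h1 (cp_of_ult hω hq) (cen_nochar hω hq hs hz ι j hc hd φ))) n hn X K ε hε

end Vale.Agent.P095A
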