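import Vale.Agent.P095A.Work
import Vale.Agent.P095G.PartPS
import Vale.Agent.P095G.PartCEN7
import Vale.Agent.P095G.PartAVG
import Vale.Agent.P095G.PartSM

/-! Part CNT: centred almost invariant elements from Følner sets. -/

namespace Vale.Agent.P095A

open Finset Vale.Agent.P101 Vale.Agent.P095G TopologicalSpace

variable {D F : Type} [CStarAlgebra D] [CStarAlgebra F] {G : Type} [Group G]

theorem fav [PartialOrder D] [StarOrderedRing D] (β : G →* (D ≃⋆ₐ[ℂ] D)) {p : D} (p0 : 0 ≤ p)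
    {δ η : ℝ} (hδ : 0 ≤ δ) (h1 : ∀ ρ : D →ₗ[ℂ] ℂ, Tr ρ → (ρ p).re ≤ δ) {L : ℕ} (hL : 0 < L)
    (h : Fin L → G) (g : G) (J : Finset (Fin L)) (φ : Fin L → Fin L) (hφ : Set.InjOn φ J)
    (h2 : ∀ i ∈ J, (h (φ i))⁻¹ * g * h i = 1) (h3 : ((L : ℝ) - J.card) ≤ η * L) :
    ∃ r r' : D, 0 ≤ r ∧ 0 ≤ r' ∧ (L : ℝ)⁻¹ • ∑ i, β (h i) p + r =
      β g ((L : ℝ)⁻¹ • ∑ i, β (h i) p) + r' ∧ ∀ ρ : D →ₗ[ℂ] ℂ, Tr ρ →
        (ρ r).re ≤ η * δ ∧ (ρ r').re ≤ η * δ := by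
  have L0 : (0 : ℝ) < L := Nat.cast_pos.2 hL
  have c0 : (0 : ℝ) ≤ (L : ℝ)⁻¹ := by positivity
  have hJ : J.card ≤ L := (card_le_univ J).trans_eq (Fintype.card_fin L)
  have bd : ∀ ρ : D →ₗ[ℂ] ℂ, Tr ρ → ∀ (s : Finset (Fin L)) (k : Fin L → G), s.card = J.card →
      (ρ ((L : ℝ)⁻¹ • ∑ i ∈ sᶜ, β (k i) p)).re ≤ η * δ := fun ρ hρ s k hs => by
    have := sum_le_card_nsmul sᶜ (fun i => (ρ (β (k i) p)).re) δ fun i _ => by
      obtain ⟨ρ', a1, a2, -⟩ := AVG.tr_eqv hρ (β (k i))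
      rw [← a2]
      exact h1 ρ' a1
    rw [card_compl, Fintype.card_fin, hs, nsmul_eq_mul, Nat.cast_sub hJ] at this
    rw [AVG.re_smul, map_sum, Complex.re_sum, ← div_eq_inv_mul, div_le_iff₀ L0]
    nlinarith [mul_le_mul_of_nonneg_right h3 hδ]
  refine ⟨(L : ℝ)⁻¹ • ∑ i ∈ Jᶜ, β (g * h i) p, (L : ℝ)⁻¹ • ∑ i ∈ (J.image φ)ᶜ, β (h i) p,
    smul_nonneg c0 (sum_nonneg fun i _ => AVG.pos_map _ p0),
    smul_nonneg c0 (sum_nonneg fun i _ => AVG.pos_map _ p0), ?_, fun ρ hρ =>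
      ⟨bd ρ hρ J _ rfl, bd ρ hρ _ _ (card_image_of_injOn hφ)⟩⟩
  have e1 : β g ((L : ℝ)⁻¹ • ∑ i, β (h i) p) = (L : ℝ)⁻¹ • ∑ i, β (g * h i) p := by
    rw [← Complex.coe_smul, map_smul, map_sum, Complex.coe_smul]
    simp only [map_mul]
    rfl
  have e2 : ∑ i ∈ J, β (g * h i) p = ∑ i ∈ J, β (h (φ i)) p := sum_congr rfl fun i hi => by
    have := h2 i hi
    rw [mul_assoc, inv_mul_eq_one] at this
    rw [this]
  rw [e1, ← smul_add, ← smul_add, ← sum_add_sum_compl J fun i => β (g * h i) p, e2,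
    ← sum_add_sum_compl (J.image φ) fun i => β (h i) p, sum_image hφ]
  congr 1
  abel

theorem cnt {σ : G →* (F ≃⋆ₐ[ℂ] F)}
    (hG : ∀ (K : Finset G) (η : ℝ), 0 < η → ∃ (L : ℕ) (h : Fin L → G), 0 < L ∧
      ∀ g ∈ K, ∃ (J : Finset (Fin L)) (φ : Fin L → Fin L), Set.InjOn φ J ∧
        (∀ i ∈ J, (h (φ i))⁻¹ * g * h i = 1) ∧ ((L : ℝ) - J.card) ≤ η * L)
    (hS : Sm σ ⊥) : Cnt σ := by
  intro K ε hε
  obtain ⟨e, e0, e1, e2⟩ : ∃ e : ℝ, 0 < e ∧ e ≤ ε ∧ e ≤ 1 :=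
    ⟨min ε 1, lt_min hε one_pos, min_le_left _ _, min_le_right _ _⟩
  obtain ⟨L, h, hL, hh⟩ := hG K (e / 256) (by positivity)
  obtain ⟨n, hn⟩ := exists_nat_ge (1024 * L / e + 1)
  have L0 : (0 : ℝ) < L := Nat.cast_pos.2 hL
  have n1 : (1 : ℝ) ≤ n := le_trans (le_add_of_nonneg_left (by positivity)) hn
  have n0 : (0 : ℝ) < n := one_pos.trans_le n1
  have n2 : 1024 * (L : ℝ) ≤ n * e := by
    rw [← div_le_iff₀ e0]
    linarith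
  obtain ⟨D, _, _, β, ι, p, c1, hp, c2⟩ := hS n (Nat.cast_pos.1 n0) ∅ (by simp) 1 one_pos
  let _ := CStarAlgebra.spectralOrder D
  have _ := CStarAlgebra.spectralOrderedRing D
  obtain ⟨hy, c3⟩ := avg_basic β hp (fun ρ hρ => ⟨(c2 ρ hρ).1, (c2 ρ hρ).2.1⟩) hL h
  have fv := fun g J φ hφ => fav β (η := e / 256) (AVG.ctr_iff.1 hp).1 (by positivity)
    (fun ρ hρ => (SM.le_rt hρ hp).trans (c2 ρ hρ).2.1) hL h g J φ hφ
  generalize (L : ℝ)⁻¹ • ∑ i, β (h i) p = y at hy c3 fv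
  obtain ⟨δ, hδ⟩ : ∃ δ : ℝ, δ = 1 / (8 * n) := ⟨_, rfl⟩
  have d0 : 0 < δ := by rw [hδ]; positivity
  have d1 : 2 / (n : ℝ) = 16 * δ := by rw [hδ]; field_simp; norm_num
  have d2 : 8 * n * δ = 1 := by rw [hδ]; field_simp
  rw [← hδ, d1] at c3
  rw [d1] at fv
  have hw := SM.rt_ctr hy
  obtain ⟨v, hv, c4⟩ := cen7 hw (fun ρ hρ => (c3 ρ hρ).2) (ε := e * δ / 32) (by positivity)
  have c5 : ∀ ρ : D →ₗ[ℂ] ℂ, Tr ρ → (ρ (v ^ 2)).re ≤ e * δ / 16 := fun ρ hρ => by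
    have := (c4 ρ hρ).2
    rw [mul_pow, Real.sq_sqrt L0.le, ← sq] at this
    have a1 := mul_le_mul_of_nonneg_right n2 (mul_pos d0 d0).le
    have a2 : n * e * (δ * δ) = e * δ / 8 := by linear_combination (e * δ / 8) * d2
    nlinarith
  have sw := hw.1.sub hv.1
  obtain ⟨w0, w1⟩ := AVG.ctr_iff.1 hw
  obtain ⟨v0, v1⟩ := AVG.ctr_iff.1 hv
  refine ⟨δ, D, _, ‹_›, β, ι, rt y - v, d0, by nlinarith, c1, sw, ?_, fun ρ hρ => ⟨?_, ?_, ?_⟩⟩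
  · rw [← cfc_id' ℝ (rt y - v) sw]
    refine norm_cfc_le zero_le_one fun t ht => abs_le.2 ⟨?_, ?_⟩
    · refine (algebraMap_le_iff_le_spectrum (R := ℝ) sw).1 ?_ t ht
      rw [map_neg, map_one, neg_le_sub_iff_le_add]
      exact v1.trans (le_add_of_nonneg_left w0)
    · exact (CFC.le_one_iff (R := ℝ) _ sw).1 ((sub_le_self _ v0).trans w1) t ht
  · rw [map_sub, (c4 ρ hρ).1, sub_self]
  · have a1 := sq_add hρ sw hv.1
    rw [sub_add_cancel, sq (rt y), SM.rt_sq hy, sq (rt y - v)] at a1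
    have a2 := (c3 ρ hρ).1
    have a3 := c5 ρ hρ
    nlinarith
  · intro g hg
    obtain ⟨J, φ, b1, b2, b3⟩ := hh g hg
    obtain ⟨r, r', r0, r1, b4, b5⟩ := fv g J φ b1 b2 b3
    have y0 := (AVG.ctr_iff.1 hy).1
    have a1 := ps hρ (AVG.pos_map (β g) y0) y0 r1 r0 b4.symm
    have a2 : β g (rt y) = rt (β g y) :=
      StarAlgHomClass.map_cfc (β g : D →⋆ₐ[ℂ] D) Real.sqrt y Real.continuous_sqrt.continuousOn
        (U2.hom_cont _) hy.1 (hy.1.map _)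
    have a3 : β g (rt y - v) - (rt y - v) = (rt (β g y) - rt y) - (β g v - v) := by
      rw [map_sub, a2]; abel
    have a4 := sq_sub hρ (x := rt (β g y) - rt y)
      ((SM.rt_ctr (hy.map (β g : D →⋆ₐ[ℂ] D))).1.sub hw.1) ((hv.1.map (β g)).sub hv.1)
    have a5 := sq_sub hρ (hv.1.map (β g)) hv.1
    obtain ⟨ρ', t1, t2, -⟩ := AVG.tr_eqv hρ (β g)
    have a6 := c5 ρ' t1
    rw [t2, map_pow] at a6
    have a7 := c5 ρ hρ
    obtain ⟨a8, a9⟩ := b5 ρ hρ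
    rw [a3]
    linarith [mul_le_mul_of_nonneg_right e1 d0.le]

end Vale.Agent.P095A
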