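import Vale.Agent.P095A.Defs
import Vale.Agent.P095G.PartROT
import Vale.Agent.P101.PartT

/-! Working definitions: separated elements, centred elements. -/

namespace Vale.Agent.P095A

open Vale.Agent.P101 Vale.Agent.P095G TopologicalSpace

variable {F : Type} [CStarAlgebra F] {G : Type} [Group G]

/-- One element whose translates can be moved off each other. -/
def Pair (σ : G →* (F ≃⋆ₐ[ℂ] F)) : Prop :=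
  ∃ (δ : ℝ) (D : Type) (_ : CStarAlgebra D) (_ : SeparableSpace D) (β : G →* (D ≃⋆ₐ[ℂ] D))
    (ι : D →⋆ₐ[ℂ] F) (h : D), 0 < δ ∧ δ ≤ 1 ∧ Eqv β σ ι ∧ Ctr h ∧
      (∀ ρ : D →ₗ[ℂ] ℂ, Tr ρ → ρ (h * h) = δ) ∧
      ∀ (k l : G) (η : ℝ), 0 < η → ∃ t ∈ unitary D, ‖β k h * t * β l h‖ ≤ η

/-- Unitaries that move all translates off each other. -/
def Sep (σ : G →* (F ≃⋆ₐ[ℂ] F)) : Prop :=
  ∀ (Φ : Finset G) (N : ℕ), ∃ (δ : ℝ) (D : Type) (_ : CStarAlgebra D) (_ : SeparableSpace D)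
    (β : G →* (D ≃⋆ₐ[ℂ] D)) (ι : D →⋆ₐ[ℂ] F) (h : D), 0 < δ ∧ δ ≤ 1 ∧ Eqv β σ ι ∧ Ctr h ∧
      (∀ ρ : D →ₗ[ℂ] ℂ, Tr ρ → ρ (h * h) = δ) ∧
      ∀ η : ℝ, 0 < η → ∃ u : Fin N → D, (∀ i, u i ∈ unitary D) ∧
        ∀ k ∈ Φ, ∀ l ∈ Φ, ∀ i j, i ≠ j → ‖β k h * (star (u i) * u j) * β l h‖ ≤ η

/-- Centred elements that are almost invariant relative to their variance. -/
def Cnt (σ : G →* (F ≃⋆ₐ[ℂ] F)) : Prop :=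
  ∀ (K : Finset G) (ε : ℝ), 0 < ε → ∃ (δ : ℝ) (D : Type) (_ : CStarAlgebra D)
    (_ : SeparableSpace D) (β : G →* (D ≃⋆ₐ[ℂ] D)) (ι : D →⋆ₐ[ℂ] F) (w : D),
      0 < δ ∧ δ ≤ 1 ∧ Eqv β σ ι ∧ IsSelfAdjoint w ∧ ‖w‖ ≤ 1 ∧ ∀ ρ : D →ₗ[ℂ] ℂ, Tr ρ →
        ρ w = 0 ∧ δ / 4 ≤ (ρ (w * w)).re ∧ ∀ g ∈ K, (ρ ((β g w - w) ^ 2)).re ≤ ε * δ

end Vale.Agent.P095A
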